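import Crest.Agent.X212.Hd82.Defs
import Crest.Agent.X212.Klp2.MxA

/-!
# Row 212, HD-MIX (helper22): the patch on the head
-/

set_option autoImplicit false
set_option linter.unusedSectionVars false
noncomputable section
open Set Function Filter Topology
open scoped ContDiff Manifold

namespace Crest.Agent.X212.Glu22
open An M G75 Nd18 Klp2.Mx

section gen
variable {X X' : Mf 4} {A A' A₀ κ lam : Type} [Fintype A] [Fintype A'] [Fintype A₀] [Fintype κ]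
  [Fintype lam] [DecidableEq lam] {M : Mark X A κ} {M' : Mark X' A' κ} {I : MId M M' A₀}
  {W : World M} {W' : World M'} {N : ML M lam} {N' : ML M' lam} {Λ : Lns W N} {Λ' : Lns W' N'}
  {p : Prm A} {p' : Prm A'} {V : Set X.M} {w : X.M → Matrix lam lam ℂ}

/-- agreement on matched model necks, in terms of the height -/
theorem ag_s (hL : LId N N' I V w) {a₀ : A₀} {a : A} {a' : A'} (k : I.f a₀ = a) (k' : I.f' a₀ = a')
    (h : p.2 ∈ M.sys.Par) (h' : p'.2 ∈ M'.sys.Par) (e : p.2 a = 1) (e' : p'.2 a' = 1) {x : X.M}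
    (h1 : |(M.bn a).s x| ≤ 1) (h0 : (M.bn a).s x ≠ 0) (hx : x ∈ V) : Ag I Λ Λ' p p' w x := by
  subst k k'
  obtain ⟨y, hy⟩ := (M.bn _).exists_of_abs_s_lt (h1.trans_lt (by norm_num))
  exact hy ▸ ag_neck (q := (y, _)) hL h h' e e' h1 h0 (hy.symm ▸ hx)

theorem ind_br (c : M.Cl) (u : ℝ) : (u, c.1.indicator 1) ∈ M.Br c.1 :=
  ⟨⟨fun a => by by_cases h : a ∈ c.1 <;> simp [h], c.2.mono support_indicator_subset⟩,
    fun _ h => indicator_of_mem h _⟩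

theorem ind_O (c : M.Cl) (u : ℝ) : (u, c.1.indicator 1) ∈ M.O c.1 := fun _ h =>
  (indicator_of_notMem h.1 _).trans_lt one_pos

theorem U_two {ρ : Reg A} {a s : A} {b b' : Bool} (h : ρ a = some b) (h' : ρ s = some b')
    (k : ∀ x, x ≠ a → x ≠ s → ρ x = none) :
    M.sys.U ρ = (M.sys.w a).sd b ∩ (M.sys.w s).sd b' := by
  refine Set.ext fun x => ⟨fun hx => ⟨hx _ _ h, hx _ _ h'⟩, fun hx a' e he => ?_⟩
  by_cases k1 : a' = a
  · subst k1; exact Option.some.inj (h.symm.trans he) ▸ hx.1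
  by_cases k2 : a' = s
  · subst k2; exact Option.some.inj (h'.symm.trans he) ▸ hx.2
  · exact absurd ((k _ k1 k2).symm.trans he) (by simp)

end gen

variable {κ lam : Type} [Fintype κ] [Fintype lam] [DecidableEq lam] {Lm : LM κ lam}

theorem y_as {y : G75.YD κ lam} (hy : y.OK) : (y.M.sys.w y.a).band ⊆ (y.M.sys.w y.s).sd false :=
  have := y.M.con
  hy.rev.1.trans (subset_union_left.trans (Wall.nest (b := true) hy.hs.1 hy.hs.2 hy.rev.2.1))

theorem y_sa {y : G75.YD κ lam} (hy : y.OK) : (y.M.sys.w y.s).band ⊆ (y.M.sys.w y.a).sd true :=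
  have := y.M.con
  hy.hs.2.trans (subset_union_left.trans (Wall.nest (b := false) hy.ah.1.symm hy.rev.1 hy.ah.2))

/-- the head piece -/
theorem hw_s {y : G75.YD κ lam} {w : Hd82.HW y} (hy : y.OK) (hw : w.OK) :
    (∀ x, x ≠ y.a → x ≠ y.s → w.ρ true x = none) ∧ w.ρ true y.s = some false := by
  obtain ⟨hπ, ha⟩ := hw.pc true
  have k : ∀ x, w.ρ true x ≠ none → x = y.a ∨ x = y.s := fun x h => by
    have := hπ.bd_subset h
    rwa [hw.c] at this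
  have hs : y.s ∈ w.c.1 := hw.c ▸ .inr rfl
  refine ⟨fun x h h' => by_contra fun e => (k x e).elim h h', ?_⟩
  rcases e : w.ρ true y.s with _ | _ | _
  · refine (hπ.not_inn _ hs ⟨e, fun x hx a b hb => ?_, fun a h => w.c.2 hs (hπ.bd_subset h) ?_⟩).elim
    · rcases k a (hb ▸ Option.some_ne_none _) with rfl | rfl
      · exact Option.some.inj (ha.symm.trans hb) ▸ y_sa hy hx
      · exact absurd (e.symm.trans hb) (by simp)
    · rintro rfl; exact h e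
  · rfl
  · obtain ⟨x, hx⟩ := (y.M.sys.w y.a).ne true
    exact ((y.M.sys.w y.s).not_mem_sd (y_as hy hx.1) (hπ.adj _ _ ha hx _ _ e)).elim

/-- **the patch on the head** -/
theorem pR {y : G75.YD κ lam} {w : Hd82.HW y} {S : Scene Lm} {t : TD y S} {R c₁} (hy : y.OK)
    (hw : w.OK) (ht : t.OK R c₁) {W : World S.M} {Λ : Lns W (S.N t.i₀)} {B : Bas S.X univ}
    {b : LBas S.X univ} (hS : Std W B) (hΛ : LStd Λ b)
    (hB : ∀ x, 1 / 2 ≤ (y.M.bn y.a).s x → (y.M.bn y.s).s x ≤ -1 / 2 →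
      Met55.Co (fun n => Dr59.mf y.X.I S.X.I t.IH.ψ x (Met55.atx (w.B.r 0) x n))
        (Met55.atx (B.r 0) (t.IH.ψ x)) ∧
      Line51.th y.X.I t.wH x + Dr59.pm y.X.I S.X.I t.IH.ψ (b.b 0) x = w.b.b 0 x)
    {m c : S.M.Cl} {τ : S.A → ℝ} (hp : ((0 : ℝ), τ) ∈ S.M.Br c.1) (ho : ((0 : ℝ), τ) ∈ S.M.O c.1)
    (hτ : ∀ x, τ x ≠ 0 → x = t.a ∨ x = t.s ∨ t.Sd false x) {ρ : Reg S.A}
    (hρ : S.M.sys.Piece c.1 ρ) (ρa : ρ t.a = some true) (ρs : ρ t.s = some false)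
    (ρo : ∀ x, x ≠ t.a → x ≠ t.s → ρ x = none) {Wi : Type} {N ty}
    {g : (yY y).M → (S.M.bn t.a).Y.M}
    (hj : ∀ q, t.IH.ψ ((y.M.bn y.a).j q) = (S.M.bn t.a).j (g q.1, q.2))
    {K' : Nk (yD y) (Λ.B m c) (Λ.G m c (0, τ))}
    (hK : IsNk (S := (⟨yY y, y.N.cy y.a, N, ty⟩ : Xs Wi κ lam)) t.a (some true) g K') :
    ∃ φ U v, GEq (w.Λ.B w.m w.c) (w.Λ.G w.m w.c (0, w.c.1.indicator 1)) (Λ.B m c) (Λ.G m c (0, τ))
      φ U v ∧ φ.source = w.W.un w.c {w.ρ true} ∧ φ.target = W.un c {ρ} ∧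
      Klp2.Mx.Lt (w.K true) K' false φ U v := by
  have := y.M.con
  have f0 : t.IH.f 0 = y.a := congrFun ht.hf0.1 0
  have f1 : t.IH.f 1 = y.h := congrFun ht.hf0.1 1
  have f2 : t.IH.f 2 = y.s := congrFun ht.hf0.1 2
  have g0 : t.IH.f' 0 = t.a := congrFun ht.hf0.2 0
  have g2 : t.IH.f' 2 = t.s := congrFun ht.hf0.2 2
  obtain ⟨hπ, πa⟩ := hw.pc true
  obtain ⟨πo, πs⟩ := hw_s hy hw
  have ca := hρ.bd_subset (Sys.mem_bd_of ρa)
  have cs := hρ.bd_subset (Sys.mem_bd_of ρs)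
  have e := U_two (M := y.M) πa πs πo
  have h1 : y.M.sys.U (w.ρ true) ⊆ hf y.M y.a true ∩ hf y.M y.s false :=
    e ▸ inter_subset_inter subset_union_left subset_union_left
  have sa := fun e x hx => t.IH.sd 0 e x hx
  have ss := fun e x hx => t.IH.sd 2 e x hx
  rw [f0, g0] at sa
  rw [f2, g2] at ss
  have b0 := ind_br w.c 0
  have ya := b0.2 (hπ.bd_subset (Sys.mem_bd_of πa))
  have ys := b0.2 (hπ.bd_subset (Sys.mem_bd_of πs))
  refine patch w.m m ht.hl b0 (ind_O w.c 0) hp ho hπ hρ h1 ?_ (fun a h _ => ?_) (fun a h _ => ?_)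
    (fun n h => ?_) (fun x hx => ?_) f0 g0 hy.pin.1 ca πa (hw.nk true) hK fun z s => hj (z, s)
  · rw [U_two (M := S.M) ρa ρs ρo]
    refine Set.ext fun x => ⟨?_, fun hx => ?_⟩
    · rintro ⟨x, hx, rfl⟩
      have k := ht.hl.sub (h1 hx)
      exact ⟨(sa _ x k).2 (hx _ _ πa), (ss _ x k).2 (hx _ _ πs)⟩
    · obtain ⟨x, k, rfl⟩ := ht.him.ge ⟨.inl hx.1, .inl hx.2⟩
      exact ⟨x, e.ge ⟨(sa _ x (ht.hl.sub k)).1 hx.1, (ss _ x (ht.hl.sub k)).1 hx.2⟩, rfl⟩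
  · by_contra k
    exact h (πo a (fun e => k ⟨0, f0.trans e.symm⟩) fun e => k ⟨2, f2.trans e.symm⟩)
  · by_contra k
    exact h (ρo a (fun e => k ⟨0, g0.trans e.symm⟩) fun e => k ⟨2, g2.trans e.symm⟩)
  · match n, h with
    | 0, h => exact (hy.pin.1 (f0 ▸ h)).elim
    | 1, h => exact (hy.pin.2.1 (f1 ▸ h)).elim
    | 2, _ => rw [f2, g2, ρs, πs]
  have k1 := (y.M.bn y.a).mem_sd.1 (hx _ _ πa)
  have k2 := (y.M.bn y.s).mem_sd.1 (hx _ _ πs)
  simp only [pm, if_true, Bool.false_eq_true, if_false, one_mul, neg_mul, neg_pos] at k1 k2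
  rcases le_or_gt ((y.M.bn y.a).s x) 1 with k3 | k3
  · exact ag_s ht.hl f0 g0 b0.1 hp.1 ya (hp.2 ca) (by rwa [abs_of_pos k1]) k1.ne' (h1 hx)
  rcases le_or_gt (-1) ((y.M.bn y.s).s x) with k4 | k4
  · exact ag_s ht.hl f2 g2 b0.1 hp.1 ys (hp.2 cs) (abs_le.2 ⟨k4, by linarith⟩) k2.ne (h1 hx)
  have k := ht.hl.sub (h1 hx)
  have r : RelAt t.IH (w.c.1.indicator 1) τ x := by
    refine ⟨b0.1, hp.1, k, fun a h _ => ?_, fun a h h' => ?_⟩
    · have h2 := support_indicator_subset h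
      rw [hw.c] at h2
      rcases h2 with rfl | rfl
      exacts [⟨0, f0, g0 ▸ (hp.2 ca).trans ya.symm⟩, ⟨2, f2, g2 ▸ (hp.2 cs).trans ys.symm⟩]
    · rcases hτ a h with rfl | rfl | h2
      · exact ⟨0, g0, f0 ▸ ya.trans_ne one_ne_zero⟩
      · exact ⟨2, g2, f2 ▸ ys.trans_ne one_ne_zero⟩
      · exact ((S.M.sys.w t.a).not_mem_sd (h2 h') ((sa _ x k).2 (hx _ _ πa))).elim
  obtain ⟨k5, k6⟩ := hB x (by linarith) (by linarith)
  exact ⟨r.co hw.std hS (fun h => (hπ.disjoint_cores w.c.2).subset_compl_right hx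
    (biUnion_subset_biUnion_left (Mark.inf_eq b0 (ind_O w.c 0)).le h)) k5,
    r.con hw.lstd hΛ ht.hl (h1 hx) k6⟩

end Crest.Agent.X212.Glu22
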